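import Mathlib.Tactic
import Mathlib.Algebra.BigOperators.Ring.Finset
import Mathlib.Algebra.Order.BigOperators.Group.Finset
import Mathlib.Data.Real.Basic
import Mathlib.Data.Fintype.BigOperators
import Mathlib.Algebra.Order.Floor.Ring

/-!
# P235, (ST) O(1): bumps with random signs (section 3 of the proof, min form)

`bump` : from clocks `rep k o`, `D k o`, `hd k o` (thickness `2 ^ k`, offset `o`) and the scale
function `rho` a finite family `f` of `4 L`-Lipschitz functions (on edges), `|f| ≤ L κ rho / 8`,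
with a large average difference on near pairs and on far pairs.
-/

set_option linter.unusedSectionVars false

namespace Vale.Agent.P235.ST.H875

open Finset

/-- Sign of a bit. -/
def sg (b : Bool) : ℝ := if b then 1 else -1

theorem sg_not (b : Bool) : sg (!b) = - sg b := by
  cases b <;> simp [sg]

theorem abs_sg (b : Bool) : |sg b| = 1 := by
  cases b <;> simp [sg]

section Signs

variable {ι : Type} [Fintype ι] [DecidableEq ι]

/-- Flipping one sign. -/
def flp (i0 : ι) (e : ι → Bool) : ι → Bool := Function.update e i0 (!(e i0))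

theorem flp_flp (i0 : ι) (e : ι → Bool) : flp i0 (flp i0 e) = e := by
  unfold flp
  funext i
  by_cases h : i = i0
  · subst h
    simp
  · simp [Function.update_of_ne h]

theorem sum_sign (a : ι → ℝ) (i0 : ι) :
    (Fintype.card (ι → Bool) : ℝ) * |a i0| ≤ ∑ e : ι → Bool, |∑ i, sg (e i) * a i| := by
  have hE : Function.Involutive (flp i0 : (ι → Bool) → (ι → Bool)) := flp_flp i0
  have h1 : ∑ e : ι → Bool, |∑ i, sg (flp i0 e i) * a i| =
      ∑ e : ι → Bool, |∑ i, sg (e i) * a i| :=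
    Equiv.sum_comp hE.toPerm (fun e : ι → Bool => |∑ i, sg (e i) * a i|)
  have h2 : ∀ e : ι → Bool, 2 * |a i0| ≤
      |∑ i, sg (e i) * a i| + |∑ i, sg (flp i0 e i) * a i| := by
    intro e
    have h3 : ∑ i, sg (e i) * a i - ∑ i, sg (flp i0 e i) * a i = 2 * (sg (e i0) * a i0) := by
      rw [← Finset.sum_sub_distrib]
      rw [Finset.sum_eq_single i0]
      · have : flp i0 e i0 = !(e i0) := by simp [flp]
        rw [this, sg_not]
        ring
      · intro i _ hi
        have : flp i0 e i = e i := by simp [flp, Function.update_of_ne hi]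
        rw [this]
        ring
      · intro h
        exact absurd (Finset.mem_univ _) h
    have h4 : |2 * (sg (e i0) * a i0)| = 2 * |a i0| := by
      rw [abs_mul, abs_mul, abs_sg]
      norm_num
    rw [← h4, ← h3]
    exact abs_sub _ _
  have h5 : ∑ _e : ι → Bool, 2 * |a i0| ≤
      ∑ e : ι → Bool, (|∑ i, sg (e i) * a i| + |∑ i, sg (flp i0 e i) * a i|) :=
    Finset.sum_le_sum fun e _ => h2 e
  rw [Finset.sum_add_distrib, h1, Finset.sum_const, Finset.card_univ, nsmul_eq_mul] at h5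
  linarith

end Signs

/-! ### Tents -/

/-- The tent of index `n`, mesh `g`. -/
noncomputable def tent (g : ℝ) (n : ℕ) (t : ℝ) : ℝ := g - |t - n * g|

theorem tent_lip (g : ℝ) (n : ℕ) (s t : ℝ) : |tent g n s - tent g n t| ≤ |s - t| := by
  unfold tent
  have h1 := abs_abs_sub_abs_le_abs_sub (t - n * g) (s - n * g)
  have h2 : g - |s - n * g| - (g - |t - n * g|) = |t - n * g| - |s - n * g| := by ring
  have h3 : t - n * g - (s - n * g) = t - s := by ring
  rw [h2]
  rw [h3, abs_sub_comm t s] at h1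
  exact h1

theorem tent_le (g : ℝ) (n : ℕ) (t : ℝ) : tent g n t ≤ g := by
  unfold tent
  have := abs_nonneg (t - n * g)
  linarith

theorem floor_bd {g : ℝ} (hg : 0 < g) {t : ℝ} (ht : 0 ≤ t) :
    (⌊t / g⌋₊ : ℝ) * g ≤ t ∧ t < ((⌊t / g⌋₊ : ℝ) + 1) * g := by
  have h1 := Nat.floor_le (div_nonneg ht hg.le)
  have h2 := Nat.lt_floor_add_one (t / g)
  constructor
  · rwa [le_div_iff₀ hg] at h1
  · rwa [div_lt_iff₀ hg] at h2

theorem tent_pos_iff {g : ℝ} (hg : 0 < g) {n : ℕ} {t : ℝ} (ht : 0 ≤ t) (h : 0 < tent g n t) :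
    n = ⌊t / g⌋₊ ∨ n = ⌊t / g⌋₊ + 1 := by
  obtain ⟨hm1, hm2⟩ := floor_bd hg ht
  set m := ⌊t / g⌋₊ with hm
  unfold tent at h
  have h1 : |t - n * g| < g := by linarith
  rw [abs_lt] at h1
  have h2 : n < m + 2 := by
    by_contra h3
    have h4 : ((m + 2 : ℕ) : ℝ) ≤ n := by exact_mod_cast not_lt.1 h3
    push_cast at h4
    have h5 : ((m : ℝ) + 2) * g ≤ n * g := mul_le_mul_of_nonneg_right h4 hg.le
    nlinarith [h1.1]
  have h3 : m < n + 1 := by
    by_contra h3
    have h4 : ((n + 1 : ℕ) : ℝ) ≤ m := by exact_mod_cast not_lt.1 h3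
    push_cast at h4
    have h5 : ((n : ℝ) + 1) * g ≤ m * g := mul_le_mul_of_nonneg_right h4 hg.le
    nlinarith [h1.2]
  omega

theorem tent_big {g : ℝ} (hg : 0 < g) {a : ℝ} (ha : 0 ≤ a) :
    ∃ n : ℕ, n ≤ ⌊a / g⌋₊ + 1 ∧ g / 2 ≤ tent g n a ∧
      ∀ b, 3 * g ≤ |a - b| → tent g n b ≤ 0 := by
  obtain ⟨hm1, hm2⟩ := floor_bd hg ha
  set m := ⌊a / g⌋₊ with hm
  have key : ∀ n : ℕ, |a - n * g| ≤ g / 2 → g / 2 ≤ tent g n a ∧
      ∀ b, 3 * g ≤ |a - b| → tent g n b ≤ 0 := by
    intro n hn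
    refine ⟨by unfold tent; linarith, fun b hb => ?_⟩
    unfold tent
    have h1 : |a - b| ≤ |a - n * g| + |b - n * g| := by
      have := abs_sub (a - n * g) (b - n * g)
      have h2 : a - n * g - (b - n * g) = a - b := by ring
      rwa [h2] at this
    linarith
  by_cases h : a ≤ (m : ℝ) * g + g / 2
  · refine ⟨m, by omega, key m ?_⟩
    rw [abs_le]
    constructor <;> linarith
  · refine ⟨m + 1, by omega, key (m + 1) ?_⟩
    push_cast
    rw [abs_le]
    constructor <;> nlinarith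

theorem tent_two {g : ℝ} (hg : 0 < g) {a b : ℝ} (ha : 0 ≤ a) (hab : a ≤ b) :
    ∃ n : ℕ, n ≤ ⌊a / g⌋₊ + 2 ∧
      min ((b - a) / 2) (g / 2) ≤ |max 0 (tent g n a) - max 0 (tent g n b)| := by
  obtain ⟨hm1, hm2⟩ := floor_bd hg ha
  set m := ⌊a / g⌋₊ with hm
  have ta : tent g m a = g - (a - m * g) := by
    unfold tent
    rw [abs_of_nonneg (by linarith)]
  have ta1 : tent g (m + 1) a = a - m * g := by
    unfold tent
    push_cast
    rw [abs_of_nonpos (by nlinarith)]
    ring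
  have ta2 : tent g (m + 2) a ≤ 0 := by
    unfold tent
    push_cast
    rw [abs_of_nonpos (by nlinarith)]
    nlinarith
  by_cases h1 : b < ((m : ℝ) + 1) * g
  · refine ⟨m, by omega, ?_⟩
    have tb : tent g m b = g - (b - m * g) := by
      unfold tent
      rw [abs_of_nonneg (by linarith)]
    rw [ta, tb, max_eq_right (by nlinarith), max_eq_right (by nlinarith)]
    refine le_trans (min_le_left _ _) (le_trans ?_ (le_abs_self _))
    linarith
  · rw [not_lt] at h1
    have tb : tent g m b ≤ 0 := by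
      unfold tent
      have := le_abs_self (b - m * g)
      nlinarith
    by_cases h2 : b < ((m : ℝ) + 2) * g
    · by_cases h3 : b - a ≤ 2 * (((m : ℝ) + 1) * g - a)
      · refine ⟨m, by omega, ?_⟩
        rw [ta, max_eq_right (by nlinarith), max_eq_left tb]
        refine le_trans (min_le_left _ _) (le_trans ?_ (le_abs_self _))
        nlinarith
      · refine ⟨m + 2, by omega, ?_⟩
        have tb2 : tent g (m + 2) b = b - ((m : ℝ) + 1) * g := by
          unfold tent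
          push_cast
          rw [abs_of_nonpos (by nlinarith)]
          ring
        rw [tb2, max_eq_left ta2, max_eq_right (by nlinarith), abs_sub_comm]
        refine le_trans (min_le_left _ _) (le_trans ?_ (le_abs_self _))
        nlinarith
    · rw [not_lt] at h2
      have tb1 : tent g (m + 1) b ≤ 0 := by
        unfold tent
        push_cast
        have := le_abs_self (b - ((m : ℝ) + 1) * g)
        nlinarith
      by_cases h3 : a - m * g ≤ g / 2
      · refine ⟨m, by omega, ?_⟩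
        rw [ta, max_eq_right (by nlinarith), max_eq_left tb]
        refine le_trans (min_le_right _ _) (le_trans ?_ (le_abs_self _))
        linarith
      · refine ⟨m + 1, by omega, ?_⟩
        rw [ta1, max_eq_right (by linarith), max_eq_left tb1]
        refine le_trans (min_le_right _ _) (le_trans ?_ (le_abs_self _))
        linarith

/-! ### Maxima and minima of 1-Lipschitz numbers -/

theorem min_lip {a b c d e : ℝ} (h1 : |a - b| ≤ e) (h2 : |c - d| ≤ e) :
    |min a c - min b d| ≤ e := by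
  rw [abs_le] at *
  constructor
  · rcases le_total a c with h | h <;> rcases le_total b d with h' | h' <;>
      simp only [min_eq_left, min_eq_right, h, h'] <;> linarith [h1.1, h1.2, h2.1, h2.2]
  · rcases le_total a c with h | h <;> rcases le_total b d with h' | h' <;>
      simp only [min_eq_left, min_eq_right, h, h'] <;> linarith [h1.1, h1.2, h2.1, h2.2]

theorem max_lip {a b e : ℝ} (h1 : |a - b| ≤ e) : |max 0 a - max 0 b| ≤ e := by
  rw [abs_le] at *
  constructor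
  · rcases le_total 0 a with h | h <;> rcases le_total 0 b with h' | h' <;>
      simp only [max_eq_left, max_eq_right, h, h'] <;> linarith [h1.1, h1.2]
  · rcases le_total 0 a with h | h <;> rcases le_total 0 b with h' | h' <;>
      simp only [max_eq_left, max_eq_right, h, h'] <;> linarith [h1.1, h1.2]

section Main

variable {V O : Type} [Fintype V] [DecidableEq V] [Fintype O] [Nonempty O]

/-- The bump of thickness `2 ^ k`, offset `o`, index `n`, without the component. -/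
noncomputable def W (d1 κ : ℝ) (rho : V → ℝ) (D hd : ℕ → O → V → ℝ) (k : ℕ) (o : O) (n : ℕ)
    (x : V) : ℝ :=
  max 0 (min (4 * 2 ^ k - d1 * rho x) (min (κ * rho x / 2 - 2 * 2 ^ k)
    (min (hd k o x) (tent (2 ^ k / 4) n (D k o x)))))

/-- The bump. -/
noncomputable def T (d1 κ : ℝ) (rho : V → ℝ) (rep : ℕ → O → V → V) (D hd : ℕ → O → V → ℝ)
    (k : ℕ) (o : O) (z : V) (n : ℕ) (x : V) : ℝ :=
  if rep k o x = z then W d1 κ rho D hd k o n x else 0

variable {adj : V → V → Prop} {M L NB : ℕ} {rho : V → ℝ} {κ d1 : ℝ}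
  {rep : ℕ → O → V → V} {D hd : ℕ → O → V → ℝ}

theorem W_nonneg (k : ℕ) (o : O) (n : ℕ) (x : V) : 0 ≤ W d1 κ rho D hd k o n x :=
  le_max_left _ _

theorem T_nonneg (k : ℕ) (o : O) (z : V) (n : ℕ) (x : V) :
    0 ≤ T d1 κ rho rep D hd k o z n x := by
  unfold T
  split_ifs
  · exact W_nonneg k o n x
  · exact le_rfl

theorem T_ne {k : ℕ} {o : O} {z : V} {n : ℕ} {x : V} (h : T d1 κ rho rep D hd k o z n x ≠ 0) :
    rep k o x = z ∧ d1 * rho x < 4 * 2 ^ k ∧ 2 * 2 ^ k < κ * rho x / 2 ∧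
      0 < tent (2 ^ k / 4) n (D k o x) := by
  unfold T at h
  split_ifs at h with h1
  · refine ⟨h1, ?_⟩
    unfold W at h
    have h2 : 0 < min (4 * 2 ^ k - d1 * rho x) (min (κ * rho x / 2 - 2 * 2 ^ k)
        (min (hd k o x) (tent (2 ^ k / 4) n (D k o x)))) := by
      by_contra h3
      exact h (max_eq_left (not_lt.1 h3))
    rw [lt_min_iff, lt_min_iff, lt_min_iff] at h2
    exact ⟨by linarith [h2.1], by linarith [h2.2.1], h2.2.2.2⟩
  · exact absurd rfl h

theorem T_le {k : ℕ} {o : O} {z : V} {n : ℕ} {x : V} :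
    T d1 κ rho rep D hd k o z n x ≤ 2 ^ k / 4 := by
  have h0 : (0 : ℝ) ≤ 2 ^ k / 4 := by positivity
  unfold T
  split_ifs with h1
  · unfold W
    refine max_le h0 (le_trans (min_le_right _ _) (le_trans (min_le_right _ _)
      (le_trans (min_le_right _ _) (tent_le _ _ _))))
  · exact h0

theorem T_le_hd {k : ℕ} {o : O} {z : V} {n : ℕ} {x : V} (h : 0 ≤ hd k o x) :
    T d1 κ rho rep D hd k o z n x ≤ hd k o x := by
  unfold T
  split_ifs with h1
  · unfold W
    exact max_le h (le_trans (min_le_right _ _) (le_trans (min_le_right _ _) (min_le_left _ _)))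
  · exact h

/-- A bump is 1-Lipschitz on edges. -/
theorem T_lip (hκ : 0 < κ) (hd1 : 0 < d1) (hd1κ : d1 ≤ κ)
    (hρ : ∀ x y, adj x y → |rho x - rho y| ≤ 1 / κ)
    (hrep : ∀ k o x y, adj x y → rep k o x = rep k o y → |D k o x - D k o y| ≤ 1)
    (hhd : ∀ k o x y, adj x y → |hd k o x - hd k o y| ≤ 1)
    (hh0 : ∀ k o x, 0 ≤ hd k o x)
    (hcr : ∀ k o x y, adj x y → rep k o x ≠ rep k o y → hd k o x ≤ 1 ∧ hd k o y ≤ 1)
    {x y : V} (hxy : adj x y) (k : ℕ) (o : O) (z : V) (n : ℕ) :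
    |T d1 κ rho rep D hd k o z n x - T d1 κ rho rep D hd k o z n y| ≤ 1 := by
  by_cases h1 : rep k o x = rep k o y
  · by_cases h2 : rep k o x = z
    · have h3 : rep k o y = z := h1 ▸ h2
      unfold T
      rw [if_pos h2, if_pos h3]
      unfold W
      have hr := hρ x y hxy
      have hr2 : κ * |rho x - rho y| ≤ 1 := by
        calc κ * |rho x - rho y| ≤ κ * (1 / κ) := mul_le_mul_of_nonneg_left hr hκ.le
          _ = 1 := by field_simp
      have hr3 : d1 * |rho x - rho y| ≤ 1 :=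
        le_trans (mul_le_mul_of_nonneg_right hd1κ (abs_nonneg _)) hr2
      refine max_lip (min_lip ?_ (min_lip ?_ (min_lip (hhd k o x y hxy) ?_)))
      · have : 4 * 2 ^ k - d1 * rho x - (4 * 2 ^ k - d1 * rho y) = -(d1 * (rho x - rho y)) := by
          ring
        rw [this, abs_neg, abs_mul, abs_of_pos hd1]
        exact hr3
      · have : κ * rho x / 2 - 2 * 2 ^ k - (κ * rho y / 2 - 2 * 2 ^ k) =
            (κ * (rho x - rho y)) / 2 := by ring
        rw [this, abs_div, abs_mul, abs_of_pos hκ, abs_of_pos (by norm_num : (0 : ℝ) < 2)]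
        linarith
      · exact le_trans (tent_lip _ _ _ _) (hrep k o x y hxy h1)
    · have h3 : ¬ rep k o y = z := fun h => h2 (h1.trans h)
      unfold T
      rw [if_neg h2, if_neg h3]
      simp
  · obtain ⟨h2, h3⟩ := hcr k o x y hxy h1
    have h4 := T_nonneg (d1 := d1) (κ := κ) (rho := rho) (rep := rep) (D := D) (hd := hd) k o z n x
    have h5 := T_nonneg (d1 := d1) (κ := κ) (rho := rho) (rep := rep) (D := D) (hd := hd) k o z n y
    have h6 := T_le_hd (d1 := d1) (κ := κ) (rho := rho) (rep := rep) (D := D) (hd := hd)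
      (z := z) (n := n) (hh0 k o x)
    have h7 := T_le_hd (d1 := d1) (κ := κ) (rho := rho) (rep := rep) (D := D) (hd := hd)
      (z := z) (n := n) (hh0 k o y)
    rw [abs_le]
    constructor <;> linarith

/-! ### Counting the active bumps -/

theorem K_card {r : ℝ} (hr : 0 ≤ r) (hd1 : 0 < d1) (hL : κ ≤ 2 ^ L * d1) :
    ((Finset.univ : Finset (Fin (M + 1))).filter fun k : Fin (M + 1) =>
      d1 * r < 4 * (2 : ℝ) ^ (k : ℕ) ∧ 2 * (2 : ℝ) ^ (k : ℕ) < κ * r / 2).card ≤ L := by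
  set S := (Finset.univ : Finset (Fin (M + 1))).filter fun k : Fin (M + 1) =>
      d1 * r < 4 * (2 : ℝ) ^ (k : ℕ) ∧ 2 * (2 : ℝ) ^ (k : ℕ) < κ * r / 2 with hS
  rcases S.eq_empty_or_nonempty with h | h
  · rw [h]
    exact Nat.zero_le _
  · have h0 := S.min'_mem h
    set k0 := S.min' h with hk0
    have h1 : d1 * r < 4 * (2 : ℝ) ^ (k0 : ℕ) := (Finset.mem_filter.1 h0).2.1
    have h2 : S.card ≤ (Finset.Ico (k0 : ℕ) (k0 + L)).card := by
      refine Finset.card_le_card_of_injOn (fun k : Fin (M + 1) => (k : ℕ)) ?_ ?_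
      · intro k hk
        have hk' : k ∈ S := by simpa using hk
        have h3 : 2 * (2 : ℝ) ^ (k : ℕ) < κ * r / 2 := (Finset.mem_filter.1 hk').2.2
        have h4 : k0 ≤ k := S.min'_le k hk'
        have h5 : κ * r ≤ 2 ^ L * d1 * r := mul_le_mul_of_nonneg_right hL hr
        have h6 : (2 : ℝ) ^ L * d1 * r ≤ 2 ^ L * (4 * 2 ^ (k0 : ℕ)) := by
          rw [mul_assoc]
          exact mul_le_mul_of_nonneg_left h1.le (by positivity)
        have h7 : (2 : ℝ) ^ (k : ℕ) < 2 ^ ((k0 : ℕ) + L) := by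
          rw [pow_add]
          nlinarith
        have h8 : (k : ℕ) < (k0 : ℕ) + L := (pow_lt_pow_iff_right₀ (by norm_num)).1 h7
        have h9 : (k0 : ℕ) ≤ (k : ℕ) := h4
        simp only [Finset.coe_Ico, Set.mem_Ico]
        exact ⟨h9, h8⟩
      · intro a _ b _ hab
        exact Fin.ext hab
    simpa using h2

open Classical in
/-- The active indices. -/
noncomputable def act (M NB : ℕ) (d1 κ : ℝ) (rho : V → ℝ) (rep : ℕ → O → V → V)
    (D hd : ℕ → O → V → ℝ) (o : O) (x : V) : Finset (Fin (M + 1) × V × Fin NB) :=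
  Finset.univ.filter fun i => T d1 κ rho rep D hd i.1 o i.2.1 i.2.2 x ≠ 0

theorem act_card (hρ0 : ∀ x, 0 ≤ rho x) (hd1 : 0 < d1) (hL : κ ≤ 2 ^ L * d1)
    (hD0 : ∀ k o x, 0 ≤ D k o x) (o : O) (x : V) :
    (act M NB d1 κ rho rep D hd o x).card ≤ 2 * L := by
  classical
  have h1 : (act M NB d1 κ rho rep D hd o x).card ≤
      2 * ((act M NB d1 κ rho rep D hd o x).image Prod.fst).card := by
    refine Finset.card_le_mul_card_image _ _ fun k _ => ?_
    have h2 : (((act M NB d1 κ rho rep D hd o x).filter fun i => i.1 = k)).card ≤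
        ({⌊D k o x / (2 ^ (k : ℕ) / 4)⌋₊, ⌊D k o x / (2 ^ (k : ℕ) / 4)⌋₊ + 1} : Finset ℕ).card := by
      refine Finset.card_le_card_of_injOn (fun i => (i.2.2 : ℕ)) ?_ ?_
      · intro i hi
        have hi' := Finset.mem_filter.1 (Finset.mem_coe.1 hi)
        have hi2 : T d1 κ rho rep D hd i.1 o i.2.1 i.2.2 x ≠ 0 := (Finset.mem_filter.1 hi'.1).2
        obtain ⟨_, _, _, h3⟩ := T_ne hi2
        have h4 := tent_pos_iff (by positivity) (hD0 i.1 o x) h3
        rw [hi'.2] at h4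
        simp only [Finset.coe_insert, Finset.coe_singleton, Set.mem_insert_iff,
          Set.mem_singleton_iff]
        exact h4
      · intro i hi j hj hij
        have hi' := Finset.mem_filter.1 (Finset.mem_coe.1 hi)
        have hj' := Finset.mem_filter.1 (Finset.mem_coe.1 hj)
        have hi2 : T d1 κ rho rep D hd i.1 o i.2.1 i.2.2 x ≠ 0 := (Finset.mem_filter.1 hi'.1).2
        have hj2 : T d1 κ rho rep D hd j.1 o j.2.1 j.2.2 x ≠ 0 := (Finset.mem_filter.1 hj'.1).2
        have h3 := (T_ne hi2).1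
        have h4 := (T_ne hj2).1
        have h5 : i.1 = j.1 := hi'.2.trans hj'.2.symm
        refine Prod.ext h5 (Prod.ext ?_ (Fin.ext hij))
        rw [← h3, ← h4, h5]
    exact h2.trans Finset.card_le_two
  have h3 : ((act M NB d1 κ rho rep D hd o x).image Prod.fst).card ≤ L := by
    refine le_trans (Finset.card_le_card ?_) (K_card (M := M) (hρ0 x) hd1 hL)
    intro k hk
    obtain ⟨i, hi, rfl⟩ := Finset.mem_image.1 hk
    have hi2 : T d1 κ rho rep D hd i.1 o i.2.1 i.2.2 x ≠ 0 := (Finset.mem_filter.1 hi).2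
    obtain ⟨_, h3, h4, _⟩ := T_ne hi2
    exact Finset.mem_filter.2 ⟨Finset.mem_univ _, h3, h4⟩
  omega

/-- The bump family. -/
noncomputable def F (M NB : ℕ) (d1 κ : ℝ) (rho : V → ℝ) (rep : ℕ → O → V → V)
    (D hd : ℕ → O → V → ℝ) (θ : O × (Fin (M + 1) × V × Fin NB → Bool)) (x : V) : ℝ :=
  ∑ i, sg (θ.2 i) * T d1 κ rho rep D hd i.1 θ.1 i.2.1 i.2.2 x

theorem F_sub (θ : O × (Fin (M + 1) × V × Fin NB → Bool)) (x y : V) :
    F M NB d1 κ rho rep D hd θ x - F M NB d1 κ rho rep D hd θ y =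
      ∑ i, sg (θ.2 i) * (T d1 κ rho rep D hd i.1 θ.1 i.2.1 i.2.2 x -
        T d1 κ rho rep D hd i.1 θ.1 i.2.1 i.2.2 y) := by
  unfold F
  rw [← Finset.sum_sub_distrib]
  exact Finset.sum_congr rfl fun i _ => by ring

theorem F_lip (hκ : 0 < κ) (hρ0 : ∀ x, 0 ≤ rho x) (hd1 : 0 < d1) (hd1κ : d1 ≤ κ)
    (hL : κ ≤ 2 ^ L * d1) (hρ : ∀ x y, adj x y → |rho x - rho y| ≤ 1 / κ)
    (hD0 : ∀ k o x, 0 ≤ D k o x)
    (hrep : ∀ k o x y, adj x y → rep k o x = rep k o y → |D k o x - D k o y| ≤ 1)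
    (hhd : ∀ k o x y, adj x y → |hd k o x - hd k o y| ≤ 1)
    (hh0 : ∀ k o x, 0 ≤ hd k o x)
    (hcr : ∀ k o x y, adj x y → rep k o x ≠ rep k o y → hd k o x ≤ 1 ∧ hd k o y ≤ 1)
    {x y : V} (hxy : adj x y) (θ : O × (Fin (M + 1) × V × Fin NB → Bool)) :
    |F M NB d1 κ rho rep D hd θ x - F M NB d1 κ rho rep D hd θ y| ≤ 4 * L := by
  classical
  rw [F_sub]
  refine le_trans (Finset.abs_sum_le_sum_abs _ _) ?_
  have h1 : ∀ i : Fin (M + 1) × V × Fin NB,
      |sg (θ.2 i) * (T d1 κ rho rep D hd i.1 θ.1 i.2.1 i.2.2 x -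
        T d1 κ rho rep D hd i.1 θ.1 i.2.1 i.2.2 y)| ≤
      (if i ∈ act M NB d1 κ rho rep D hd θ.1 x then (1 : ℝ) else 0) +
        (if i ∈ act M NB d1 κ rho rep D hd θ.1 y then (1 : ℝ) else 0) := by
    intro i
    rw [abs_mul, abs_sg, one_mul]
    have h2 := T_lip hκ hd1 hd1κ hρ hrep hhd hh0 hcr hxy i.1 θ.1 i.2.1 i.2.2
    by_cases h3 : T d1 κ rho rep D hd i.1 θ.1 i.2.1 i.2.2 x = 0
    · by_cases h4 : T d1 κ rho rep D hd i.1 θ.1 i.2.1 i.2.2 y = 0
      · rw [h3, h4, sub_zero, abs_zero]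
        split_ifs <;> norm_num
      · have h5 : i ∈ act M NB d1 κ rho rep D hd θ.1 y :=
          Finset.mem_filter.2 ⟨Finset.mem_univ _, h4⟩
        rw [if_pos h5]
        split_ifs <;> linarith
    · have h5 : i ∈ act M NB d1 κ rho rep D hd θ.1 x :=
        Finset.mem_filter.2 ⟨Finset.mem_univ _, h3⟩
      rw [if_pos h5]
      split_ifs <;> linarith
  refine le_trans (Finset.sum_le_sum fun i _ => h1 i) ?_
  rw [Finset.sum_add_distrib, Finset.sum_ite_mem, Finset.sum_ite_mem]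
  simp only [Finset.univ_inter, Finset.sum_const, nsmul_eq_mul, mul_one]
  have h2 := act_card (M := M) (NB := NB) (κ := κ) (rho := rho) (rep := rep) (hd := hd) hρ0 hd1 hL
    hD0 θ.1 x
  have h3 := act_card (M := M) (NB := NB) (κ := κ) (rho := rho) (rep := rep) (hd := hd) hρ0 hd1 hL
    hD0 θ.1 y
  have h4 : (((act M NB d1 κ rho rep D hd θ.1 x).card : ℕ) : ℝ) ≤ ((2 * L : ℕ) : ℝ) := by
    exact_mod_cast h2
  have h5 : (((act M NB d1 κ rho rep D hd θ.1 y).card : ℕ) : ℝ) ≤ ((2 * L : ℕ) : ℝ) := by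
    exact_mod_cast h3
  push_cast at h4 h5
  linarith

theorem F_abs (hκ : 0 < κ) (hρ0 : ∀ x, 0 ≤ rho x) (hd1 : 0 < d1) (hL : κ ≤ 2 ^ L * d1)
    (hD0 : ∀ k o x, 0 ≤ D k o x) (x : V) (θ : O × (Fin (M + 1) × V × Fin NB → Bool)) :
    |F M NB d1 κ rho rep D hd θ x| ≤ L * (κ * rho x) / 8 := by
  classical
  unfold F
  refine le_trans (Finset.abs_sum_le_sum_abs _ _) ?_
  have h1 : ∀ i : Fin (M + 1) × V × Fin NB,
      |sg (θ.2 i) * T d1 κ rho rep D hd i.1 θ.1 i.2.1 i.2.2 x| ≤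
      (if i ∈ act M NB d1 κ rho rep D hd θ.1 x then κ * rho x / 16 else 0) := by
    intro i
    rw [abs_mul, abs_sg, one_mul, abs_of_nonneg (T_nonneg _ _ _ _ _)]
    by_cases h3 : T d1 κ rho rep D hd i.1 θ.1 i.2.1 i.2.2 x = 0
    · rw [h3]
      have := mul_nonneg hκ.le (hρ0 x)
      split_ifs
      · linarith
      · exact le_rfl
    · have h5 : i ∈ act M NB d1 κ rho rep D hd θ.1 x :=
        Finset.mem_filter.2 ⟨Finset.mem_univ _, h3⟩
      rw [if_pos h5]
      obtain ⟨_, _, h6, _⟩ := T_ne h3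
      have h7 : T d1 κ rho rep D hd i.1 θ.1 i.2.1 i.2.2 x ≤ 2 ^ (i.1 : ℕ) / 4 := T_le
      linarith
  refine le_trans (Finset.sum_le_sum fun i _ => h1 i) ?_
  rw [Finset.sum_ite_mem]
  simp only [Finset.univ_inter, Finset.sum_const, nsmul_eq_mul]
  have h2 := act_card (M := M) (NB := NB) (κ := κ) (rho := rho) (rep := rep) (hd := hd) hρ0 hd1 hL
    hD0 θ.1 x
  have h4 : (((act M NB d1 κ rho rep D hd θ.1 x).card : ℕ) : ℝ) ≤ ((2 * L : ℕ) : ℝ) := by
    exact_mod_cast h2
  push_cast at h4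
  have h5 := mul_nonneg hκ.le (hρ0 x)
  nlinarith

/-- Pair bound from one good index for every offset of `S`. -/
theorem F_pair {x y : V} {S : Finset O} {cp m : ℝ} (hm : 0 ≤ m)
    (hS : cp * Fintype.card O ≤ S.card)
    (H : ∀ o ∈ S, ∃ i : Fin (M + 1) × V × Fin NB,
      m ≤ |T d1 κ rho rep D hd i.1 o i.2.1 i.2.2 x - T d1 κ rho rep D hd i.1 o i.2.1 i.2.2 y|) :
    cp * m * Fintype.card (O × (Fin (M + 1) × V × Fin NB → Bool)) ≤
      ∑ θ, |F M NB d1 κ rho rep D hd θ x - F M NB d1 κ rho rep D hd θ y| := by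
  classical
  rw [Fintype.sum_prod_type]
  have h1 : ∑ o ∈ S, (Fintype.card (Fin (M + 1) × V × Fin NB → Bool) : ℝ) * m ≤
      ∑ o : O, ∑ e : Fin (M + 1) × V × Fin NB → Bool,
        |F M NB d1 κ rho rep D hd (o, e) x - F M NB d1 κ rho rep D hd (o, e) y| := by
    refine le_trans (Finset.sum_le_sum fun o ho => ?_)
      (Finset.sum_le_sum_of_subset_of_nonneg (Finset.subset_univ S)
        fun o _ _ => Finset.sum_nonneg fun e _ => abs_nonneg _)
    obtain ⟨i, hi⟩ := H o ho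
    have h2 := sum_sign (fun i : Fin (M + 1) × V × Fin NB =>
      T d1 κ rho rep D hd i.1 o i.2.1 i.2.2 x - T d1 κ rho rep D hd i.1 o i.2.1 i.2.2 y) i
    refine le_trans (mul_le_mul_of_nonneg_left hi (Nat.cast_nonneg _)) (le_trans h2 ?_)
    refine Finset.sum_le_sum fun e _ => ?_
    rw [F_sub]
  refine le_trans ?_ h1
  rw [Finset.sum_const, nsmul_eq_mul, Fintype.card_prod, Nat.cast_mul]
  have h3 : (0 : ℝ) ≤ (Fintype.card (Fin (M + 1) × V × Fin NB → Bool) : ℝ) * m := by positivity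
  calc cp * m * ((Fintype.card O : ℝ) * (Fintype.card (Fin (M + 1) × V × Fin NB → Bool) : ℝ))
      = cp * Fintype.card O * ((Fintype.card (Fin (M + 1) × V × Fin NB → Bool) : ℝ) * m) := by
        ring
    _ ≤ S.card * ((Fintype.card (Fin (M + 1) × V × Fin NB → Bool) : ℝ) * m) :=
        mul_le_mul_of_nonneg_right hS h3

/-- Values of a bump where the first three entries are large. -/
theorem W_eq {k : ℕ} {o : O} {n : ℕ} {x : V} (h1 : d1 * rho x ≤ 3 * 2 ^ k)
    (h2 : (9 / 4) * 2 ^ k ≤ κ * rho x / 2) (h3 : 2 ^ k / 4 ≤ hd k o x) :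
    W d1 κ rho D hd k o n x = max 0 (tent (2 ^ k / 4) n (D k o x)) := by
  unfold W
  have h4 := tent_le (2 ^ k / 4) n (D k o x)
  have h0 : (0 : ℝ) < 2 ^ k := by positivity
  rw [min_eq_right (a := hd k o x) (by linarith), min_eq_right (a := κ * rho x / 2 - 2 * 2 ^ k)
    (by linarith), min_eq_right (by linarith)]

/-- The bump row of P235, (ST) O(1). -/
theorem bump (adj : V → V → Prop) (M L : ℕ) (rho : V → ℝ) (κ d1 : ℝ) (hκ : 0 < κ)
    (hρ0 : ∀ x, 0 ≤ rho x) (hd1 : 0 < d1) (hd1κ : d1 ≤ κ)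
    (hL : κ ≤ 2 ^ L * d1) (hρ : ∀ x y, adj x y → |rho x - rho y| ≤ 1 / κ)
    (rep : ℕ → O → V → V) (D hd : ℕ → O → V → ℝ)
    (hD0 : ∀ k o x, 0 ≤ D k o x)
    (hrep : ∀ k o x y, adj x y → rep k o x = rep k o y → |D k o x - D k o y| ≤ 1)
    (hhd : ∀ k o x y, adj x y → |hd k o x - hd k o y| ≤ 1)
    (hh0 : ∀ k o x, 0 ≤ hd k o x)
    (hcr : ∀ k o x y, adj x y → rep k o x ≠ rep k o y → hd k o x ≤ 1 ∧ hd k o y ≤ 1) :
    ∃ (Θ : Type) (_ : Fintype Θ) (_ : Nonempty Θ) (f : Θ → V → ℝ),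
      (∀ θ x y, adj x y → |f θ x - f θ y| ≤ 4 * L) ∧
      (∀ θ x, |f θ x| ≤ L * (κ * rho x) / 8) ∧
      (∀ (x y : V) (k : ℕ) (S : Finset O) (cp δ : ℝ), k ≤ M → d1 * rho x ≤ 2 ^ k →
        2 ^ k ≤ κ * rho x / 10 → |rho x - rho y| ≤ rho x / 2 → 0 ≤ δ →
        cp * Fintype.card O ≤ S.card →
        (∀ o ∈ S, 2 ^ k / 4 ≤ hd k o x ∧ 2 ^ k / 4 ≤ hd k o y ∧
          (rep k o x ≠ rep k o y ∨ δ ≤ |D k o x - D k o y|)) →
        cp * min (δ / 2) (2 ^ k / 8) * Fintype.card Θ ≤ ∑ θ, |f θ x - f θ y|) ∧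
      (∀ (x y : V) (k : ℕ) (S : Finset O) (cp : ℝ), k ≤ M → d1 * rho x ≤ 2 ^ k →
        2 ^ k ≤ κ * rho x / 10 → cp * Fintype.card O ≤ S.card →
        (∀ o ∈ S, 2 ^ k / 4 ≤ hd k o x ∧
          (rep k o x ≠ rep k o y ∨ 3 * 2 ^ k / 4 ≤ |D k o x - D k o y|)) →
        cp * (2 ^ k / 8) * Fintype.card Θ ≤ ∑ θ, |f θ x - f θ y|) := by
  classical
  set NB := ((Finset.univ : Finset (Fin (M + 1) × O × V)).sup fun t =>
    ⌊D t.1 t.2.1 t.2.2 / (2 ^ (t.1 : ℕ) / 4)⌋₊) + 3 with hNB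
  have hnb : ∀ (k : ℕ), k ≤ M → ∀ o x, ⌊D k o x / (2 ^ k / 4)⌋₊ + 2 < NB := by
    intro k hk o x
    have := Finset.le_sup (f := fun t : Fin (M + 1) × O × V =>
      ⌊D t.1 t.2.1 t.2.2 / (2 ^ (t.1 : ℕ) / 4)⌋₊)
      (Finset.mem_univ ((⟨k, by omega⟩ : Fin (M + 1)), o, x))
    simp only at this
    omega
  refine ⟨O × (Fin (M + 1) × V × Fin NB → Bool), inferInstance, inferInstance,
    F M NB d1 κ rho rep D hd, ?_, ?_, ?_, ?_⟩
  · intro θ x y hxy
    exact F_lip hκ hρ0 hd1 hd1κ hL hρ hD0 hrep hhd hh0 hcr hxy θ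
  · intro θ x
    exact F_abs hκ hρ0 hd1 hL hD0 x θ
  · intro x y k S cp δ hk h1 h2 h3 hδ hS H
    have hp : (0 : ℝ) < 2 ^ k := by positivity
    refine F_pair (by positivity) hS fun o ho => ?_
    obtain ⟨hx, hy, hxy⟩ := H o ho
    have hr0 := hρ0 x
    rw [abs_le] at h3
    have e1 : ∀ n, W d1 κ rho D hd k o n x = max 0 (tent (2 ^ k / 4) n (D k o x)) := fun n =>
      W_eq (by linarith) (by nlinarith) hx
    have e2 : ∀ n, W d1 κ rho D hd k o n y = max 0 (tent (2 ^ k / 4) n (D k o y)) := fun n =>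
      W_eq (by nlinarith [mul_nonneg hd1.le hr0]) (by nlinarith) hy
    by_cases hc : rep k o x = rep k o y
    · have hδ2 : δ ≤ |D k o x - D k o y| := by
        rcases hxy with h | h
        · exact absurd hc h
        · exact h
      have key : ∃ n : ℕ, n < NB ∧ min (δ / 2) (2 ^ k / 8) ≤
          |max 0 (tent (2 ^ k / 4) n (D k o x)) - max 0 (tent (2 ^ k / 4) n (D k o y))| := by
        rcases le_total (D k o x) (D k o y) with h | h
        · obtain ⟨n, hn, hn2⟩ := tent_two (g := 2 ^ k / 4) (by positivity) (hD0 k o x) h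
          refine ⟨n, lt_of_le_of_lt hn (hnb k hk o x), le_trans ?_ hn2⟩
          rw [abs_of_nonpos (by linarith)] at hδ2
          exact min_le_min (by linarith) (by linarith)
        · obtain ⟨n, hn, hn2⟩ := tent_two (g := 2 ^ k / 4) (by positivity) (hD0 k o y) h
          rw [abs_sub_comm] at hn2
          refine ⟨n, lt_of_le_of_lt hn (hnb k hk o y), le_trans ?_ hn2⟩
          rw [abs_of_nonneg (by linarith)] at hδ2
          exact min_le_min (by linarith) (by linarith)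
      obtain ⟨n, hn, hn2⟩ := key
      refine ⟨(⟨k, by omega⟩, rep k o x, ⟨n, hn⟩), ?_⟩
      unfold T
      simp only
      rw [if_pos trivial, if_pos hc.symm, e1, e2]
      exact hn2
    · obtain ⟨n, hn, hn2, _⟩ := tent_big (g := 2 ^ k / 4) (by positivity) (hD0 k o x)
      refine ⟨(⟨k, by omega⟩, rep k o x, ⟨n, lt_of_le_of_lt (by omega) (hnb k hk o x)⟩), ?_⟩
      unfold T
      simp only
      rw [if_pos trivial, if_neg (fun h => hc h.symm), e1, sub_zero]
      refine le_trans (min_le_right _ _) (le_trans ?_ (le_abs_self _))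
      exact le_trans (by linarith) (le_max_right _ _)
  · intro x y k S cp hk h1 h2 hS H
    have hp : (0 : ℝ) < 2 ^ k := by positivity
    refine F_pair (by positivity) hS fun o ho => ?_
    obtain ⟨hx, hxy⟩ := H o ho
    have hr0 := hρ0 x
    have e1 : ∀ n, W d1 κ rho D hd k o n x = max 0 (tent (2 ^ k / 4) n (D k o x)) := fun n =>
      W_eq (by linarith) (by nlinarith) hx
    obtain ⟨n, hn, hn2, hn3⟩ := tent_big (g := 2 ^ k / 4) (by positivity) (hD0 k o x)
    refine ⟨(⟨k, by omega⟩, rep k o x, ⟨n, lt_of_le_of_lt (by omega) (hnb k hk o x)⟩), ?_⟩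
    have hy0 : T d1 κ rho rep D hd k o (rep k o x) n y = 0 := by
      by_contra h
      obtain ⟨h4, _, _, h5⟩ := T_ne h
      rcases hxy with h6 | h6
      · exact h6 h4.symm
      · have := hn3 (D k o y) (by linarith)
        linarith
    have hx0 : T d1 κ rho rep D hd k o (rep k o x) n x = max 0 (tent (2 ^ k / 4) n (D k o x)) := by
      unfold T
      rw [if_pos rfl, e1]
    simp only
    rw [hy0, hx0, sub_zero]
    refine le_trans ?_ (le_abs_self _)
    exact le_trans (by linarith) (le_max_right _ _)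

end Main

end Vale.Agent.P235.ST.H875
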