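import Vale.Agent.P235.ST.H317.Defs2
import Vale.Agent.P235.ST.H119.Clock
import Vale.Agent.P235.ST.H875.Bump

/-!
# P235, (ST) O(1): rows r6, r7 (`bumps`), official statement

`T_(k,m,z,n) x = max 0 (min (4 h - d1 ρ x) (min (kap ρ x - 3 h) (min (hd x) (h/4 - |D x - n h/4|))))`
on the component with representative `z`, `h = th k`.
-/

set_option linter.unusedSectionVars false

namespace Vale.Agent.P235.STO.H875

open Finset SimpleGraph Vale.Agent.P235.ST.H875

variable {V : Type} (W : LWorld V)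

/-! ### Bands and components -/

/-- Representative of the component. -/
noncomputable def rep (k m : ℕ) (x : V) : V := ((W.Bg k m).connectedComponentMk x).out

theorem rep_eq {k m : ℕ} {x y : V} (h : (W.Bg k m).Reachable x y) :
    rep W k m x = rep W k m y := by
  unfold rep
  rw [SimpleGraph.ConnectedComponent.sound h]

theorem rep_reach (k m : ℕ) (x : V) : (W.Bg k m).Reachable (rep W k m x) x := by
  have h : (W.Bg k m).connectedComponentMk (rep W k m x) = (W.Bg k m).connectedComponentMk x :=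
    Quot.out_eq _
  exact SimpleGraph.ConnectedComponent.exact h

theorem reach_of_rep {k m : ℕ} {x y : V} (h : rep W k m x = rep W k m y) :
    (W.Bg k m).Reachable x y := by
  have h1 := (rep_reach W k m x).symm
  rw [h] at h1
  exact h1.trans (rep_reach W k m y)

/-- Height distance to the complement of the band. -/
noncomputable def hd (k m : ℕ) (x : V) : ℝ := ((min (W.pos k m x + 1) (th k - W.pos k m x) : ℤ) : ℝ)

theorem th_pos (k : ℕ) : 0 < th k := by unfold th; positivity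

theorem pos_bd (k m : ℕ) (x : V) : 0 ≤ W.pos k m x ∧ W.pos k m x < th k :=
  ⟨Int.emod_nonneg _ (th_pos k).ne', Int.emod_lt_of_pos _ (th_pos k)⟩

theorem hd_nonneg (k m : ℕ) (x : V) : 0 ≤ hd W k m x := by
  have h := pos_bd W k m x
  unfold hd
  exact_mod_cast le_min (by omega) (by omega)

/-- One step up. -/
theorem step_up {k m : ℕ} {x y : V} (h : W.u y = W.u x + 1) :
    (W.bi k m x = W.bi k m y ∧ W.pos k m y = W.pos k m x + 1) ∨
      (W.bi k m x ≠ W.bi k m y ∧ W.pos k m x = th k - 1 ∧ W.pos k m y = 0) := by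
  have ht := th_pos k
  have h1 := pos_bd W k m x
  unfold LWorld.pos LWorld.bi at *
  set a := W.u x + m * 2 ^ k with ha
  have hb : W.u y + m * 2 ^ k = a + 1 := by rw [h, ha]; ring
  rw [hb]
  have h2 : a % th k + th k * (a / th k) = a := Int.emod_add_mul_ediv _ _
  by_cases h3 : a % th k + 1 < th k
  · have h4 : (a + 1) / th k = a / th k ∧ (a + 1) % th k = a % th k + 1 :=
      (Int.ediv_emod_unique ht).2 ⟨by linarith, by linarith, h3⟩
    left
    exact ⟨h4.1.symm, h4.2⟩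
  · have h5 : a % th k = th k - 1 := by omega
    have h4 : (a + 1) / th k = a / th k + 1 ∧ (a + 1) % th k = 0 :=
      (Int.ediv_emod_unique ht).2 ⟨by linarith, le_rfl, ht⟩
    right
    refine ⟨?_, h5, h4.2⟩
    rw [h4.1]
    omega

theorem edge_cases {k m : ℕ} {x y : V} (h : W.G.Adj x y) :
    (W.bi k m x = W.bi k m y ∧ |hd W k m x - hd W k m y| ≤ 1) ∨
      (W.bi k m x ≠ W.bi k m y ∧ hd W k m x = 1 ∧ hd W k m y = 1) := by
  have key : ∀ x y : V, W.u y = W.u x + 1 →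
      (W.bi k m x = W.bi k m y ∧ |hd W k m x - hd W k m y| ≤ 1) ∨
      (W.bi k m x ≠ W.bi k m y ∧ hd W k m x = 1 ∧ hd W k m y = 1) := by
    intro x y hxy
    have h1 := pos_bd W k m x
    have h2 := pos_bd W k m y
    rcases step_up W (k := k) (m := m) hxy with ⟨h3, h4⟩ | ⟨h3, h4, h5⟩
    · left
      refine ⟨h3, ?_⟩
      unfold hd
      have h6 : |min (W.pos k m x + 1) (th k - W.pos k m x) -
          min (W.pos k m y + 1) (th k - W.pos k m y)| ≤ 1 := by
        rw [h4, abs_le]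
        omega
      exact_mod_cast h6
    · right
      refine ⟨h3, ?_, ?_⟩
      · unfold hd
        rw [h4]
        have : min (th k - 1 + 1) (th k - (th k - 1)) = 1 := by omega
        rw [this]
        norm_num
      · unfold hd
        rw [h5]
        have : min ((0 : ℤ) + 1) (th k - 0) = 1 := by omega
        rw [this]
        norm_num
  have h1 := W.unit x y h
  rcases (abs_eq (by norm_num : (0 : ℤ) ≤ 1)).1 h1 with h2 | h2
  · rcases key y x (by omega) with ⟨h3, h4⟩ | ⟨h3, h4, h5⟩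
    · left
      exact ⟨h3.symm, by rw [abs_sub_comm]; exact h4⟩
    · right
      exact ⟨Ne.symm h3, h5, h4⟩
  · exact key x y (by omega)

theorem hd_lip {k m : ℕ} {x y : V} (h : W.G.Adj x y) : |hd W k m x - hd W k m y| ≤ 1 := by
  rcases edge_cases W (k := k) (m := m) h with ⟨_, h1⟩ | ⟨_, h1, h2⟩
  · exact h1
  · rw [h1, h2]
    norm_num

theorem hd_cross {k m : ℕ} {x y : V} (h : W.G.Adj x y) (hr : rep W k m x ≠ rep W k m y) :
    hd W k m x ≤ 1 ∧ hd W k m y ≤ 1 := by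
  rcases edge_cases W (k := k) (m := m) h with ⟨h1, _⟩ | ⟨_, h1, h2⟩
  · refine absurd (rep_eq W ?_) hr
    exact SimpleGraph.Adj.reachable (show (W.Bg k m).Adj x y from ⟨h, h1⟩)
  · exact ⟨h1.le, h2.le⟩

theorem D_edge [Finite V] {k m : ℕ} {x y : V} (h : W.G.Adj x y)
    (hr : rep W k m x = rep W k m y) : |(W.D k m x : ℝ) - W.D k m y| ≤ 1 := by
  have h1 := reach_of_rep W hr
  have h2 : (W.Bg k m).Adj x y := ⟨h, (H119.bi_of_reach W k m h1).1⟩
  have h3 : (W.Bg k m).dist x y = 1 := SimpleGraph.dist_eq_one_iff_adj.2 h2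
  have h4 : (W.Bg k m).dist y x = 1 := SimpleGraph.dist_eq_one_iff_adj.2 h2.symm
  have h5 := H119.D_lip W k m h1
  have h6 := H119.D_lip W k m h1.symm
  rw [h3] at h5
  rw [h4] at h6
  have h7 : |(W.D k m x : ℤ) - W.D k m y| ≤ 1 := by
    rw [abs_le]
    push_cast at *
    constructor <;> linarith
  exact_mod_cast h7

theorem hd_mid {k m : ℕ} {x : V} (h : W.mid k m x) : (16 * 2 ^ k : ℝ) / 4 ≤ hd W k m x := by
  unfold LWorld.mid at h
  unfold hd
  have h1 : (4 * 2 ^ k : ℤ) ≤ min (W.pos k m x + 1) (th k - W.pos k m x) := by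
    have h2 : th k = 16 * 2 ^ k := rfl
    rw [h2]
    exact le_min (by linarith [h.1]) (by linarith [h.2])
  have h3 : ((4 * 2 ^ k : ℤ) : ℝ) ≤ ((min (W.pos k m x + 1) (th k - W.pos k m x) : ℤ) : ℝ) := by
    exact_mod_cast h1
  push_cast at h3
  push_cast
  linarith

theorem mid_of_u {k m : ℕ} {x y : V} (h : W.mid k m x) (hu : W.u x = W.u y) : W.mid k m y := by
  unfold LWorld.mid LWorld.pos at *
  rw [← hu]
  exact h

/-! ### The bumps -/

/-- The bump without the component. -/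
noncomputable def Wf (ρ : V → ℝ) (k m n : ℕ) (x : V) : ℝ :=
  max 0 (min (4 * (16 * 2 ^ k) - d1 * ρ x) (min (kap * ρ x - 3 * (16 * 2 ^ k))
    (min (hd W k m x) (tent (16 * 2 ^ k / 4) n (W.D k m x)))))

open Classical in
/-- The bump. -/
noncomputable def Tf (ρ : V → ℝ) (k m : ℕ) (z : V) (n : ℕ) (x : V) : ℝ :=
  if rep W k m x = z then Wf W ρ k m n x else 0

variable {W} {ρ : V → ℝ}

theorem Wf_nonneg (k m n : ℕ) (x : V) : 0 ≤ Wf W ρ k m n x := le_max_left _ _

theorem Tf_nonneg (k m : ℕ) (z : V) (n : ℕ) (x : V) : 0 ≤ Tf W ρ k m z n x := by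
  unfold Tf
  split_ifs
  · exact Wf_nonneg k m n x
  · exact le_rfl

theorem Tf_ne {k m : ℕ} {z : V} {n : ℕ} {x : V} (h : Tf W ρ k m z n x ≠ 0) :
    rep W k m x = z ∧ d1 * ρ x < 4 * (16 * 2 ^ k) ∧ 3 * (16 * 2 ^ k) < kap * ρ x ∧
      0 < tent (16 * 2 ^ k / 4) n (W.D k m x) := by
  unfold Tf at h
  split_ifs at h with h1
  · refine ⟨h1, ?_⟩
    unfold Wf at h
    have h2 : 0 < min (4 * (16 * 2 ^ k) - d1 * ρ x) (min (kap * ρ x - 3 * (16 * 2 ^ k))
        (min (hd W k m x) (tent (16 * 2 ^ k / 4) n (W.D k m x)))) := by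
      by_contra h3
      exact h (max_eq_left (not_lt.1 h3))
    rw [lt_min_iff, lt_min_iff, lt_min_iff] at h2
    exact ⟨by linarith [h2.1], by linarith [h2.2.1], h2.2.2.2⟩
  · exact absurd rfl h

theorem Tf_le {k m : ℕ} {z : V} {n : ℕ} {x : V} : Tf W ρ k m z n x ≤ 16 * 2 ^ k / 4 := by
  have h0 : (0 : ℝ) ≤ 16 * 2 ^ k / 4 := by positivity
  unfold Tf
  split_ifs with h1
  · unfold Wf
    refine max_le h0 (le_trans (min_le_right _ _) (le_trans (min_le_right _ _)
      (le_trans (min_le_right _ _) (tent_le _ _ _))))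
  · exact h0

theorem Tf_le_hd {k m : ℕ} {z : V} {n : ℕ} {x : V} : Tf W ρ k m z n x ≤ hd W k m x := by
  have h := hd_nonneg W k m x
  unfold Tf
  split_ifs with h1
  · unfold Wf
    exact max_le h (le_trans (min_le_right _ _) (le_trans (min_le_right _ _) (min_le_left _ _)))
  · exact h

theorem kap_pos : 0 < kap := by unfold kap; positivity
theorem d1_pos : 0 < d1 := by unfold d1; positivity
theorem d1_le_kap : d1 ≤ kap := by unfold d1 kap; norm_num

theorem rho_edge (h : W.Scale ρ) {x y : V} (hxy : W.G.Adj x y) : kap * |ρ x - ρ y| ≤ 1 := by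
  have h1 := h.lip x y
  unfold LWorld.d at h1
  rw [SimpleGraph.dist_eq_one_iff_adj.2 hxy, Nat.cast_one] at h1
  calc kap * |ρ x - ρ y| ≤ kap * (1 / kap) := mul_le_mul_of_nonneg_left h1 kap_pos.le
    _ = 1 := by rw [mul_one_div, div_self kap_pos.ne']

theorem Tf_lip [Finite V] (h : W.Scale ρ) {x y : V} (hxy : W.G.Adj x y) (k m : ℕ) (z : V)
    (n : ℕ) : |Tf W ρ k m z n x - Tf W ρ k m z n y| ≤ 1 := by
  by_cases h1 : rep W k m x = rep W k m y
  · by_cases h2 : rep W k m x = z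
    · have h3 : rep W k m y = z := h1 ▸ h2
      unfold Tf
      rw [if_pos h2, if_pos h3]
      unfold Wf
      have hr2 := rho_edge h hxy
      have hr3 : d1 * |ρ x - ρ y| ≤ 1 :=
        le_trans (mul_le_mul_of_nonneg_right d1_le_kap (abs_nonneg _)) hr2
      refine max_lip (min_lip ?_ (min_lip ?_ (min_lip (hd_lip W hxy) ?_)))
      · have : 4 * (16 * 2 ^ k) - d1 * ρ x - (4 * (16 * 2 ^ k) - d1 * ρ y) =
            -(d1 * (ρ x - ρ y)) := by ring
        rw [this, abs_neg, abs_mul, abs_of_pos d1_pos]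
        exact hr3
      · have : kap * ρ x - 3 * (16 * 2 ^ k) - (kap * ρ y - 3 * (16 * 2 ^ k)) =
            kap * (ρ x - ρ y) := by ring
        rw [this, abs_mul, abs_of_pos kap_pos]
        exact hr2
      · exact le_trans (tent_lip _ _ _ _) (D_edge W hxy h1)
    · have h3 : ¬ rep W k m y = z := fun h => h2 (h1.trans h)
      unfold Tf
      rw [if_neg h2, if_neg h3]
      simp
  · obtain ⟨h2, h3⟩ := hd_cross W hxy h1
    have h4 := Tf_nonneg (W := W) (ρ := ρ) k m z n x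
    have h5 := Tf_nonneg (W := W) (ρ := ρ) k m z n y
    have h6 := Tf_le_hd (W := W) (ρ := ρ) (k := k) (m := m) (z := z) (n := n) (x := x)
    have h7 := Tf_le_hd (W := W) (ρ := ρ) (k := k) (m := m) (z := z) (n := n) (x := y)
    rw [abs_le]
    constructor <;> linarith

/-! ### Counting -/

theorem K_card' (M : ℕ) {r : ℝ} (hr : 0 ≤ r) :
    ((Finset.univ : Finset (Fin (M + 1))).filter fun k : Fin (M + 1) =>
      d1 * r < 4 * (16 * (2 : ℝ) ^ (k : ℕ)) ∧ 3 * (16 * (2 : ℝ) ^ (k : ℕ)) < kap * r).card ≤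
      79 := by
  set S := (Finset.univ : Finset (Fin (M + 1))).filter fun k : Fin (M + 1) =>
      d1 * r < 4 * (16 * (2 : ℝ) ^ (k : ℕ)) ∧ 3 * (16 * (2 : ℝ) ^ (k : ℕ)) < kap * r with hS
  rcases S.eq_empty_or_nonempty with h | h
  · rw [h]
    exact Nat.zero_le _
  · have h0 := S.min'_mem h
    set k0 := S.min' h with hk0
    have h1 : d1 * r < 4 * (16 * (2 : ℝ) ^ (k0 : ℕ)) := (Finset.mem_filter.1 h0).2.1
    have h2 : S.card ≤ (Finset.Ico (k0 : ℕ) (k0 + 79)).card := by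
      refine Finset.card_le_card_of_injOn (fun k : Fin (M + 1) => (k : ℕ)) ?_ ?_
      · intro k hk
        have hk' : k ∈ S := by simpa using hk
        have h3 : 3 * (16 * (2 : ℝ) ^ (k : ℕ)) < kap * r := (Finset.mem_filter.1 hk').2.2
        have h4 : k0 ≤ k := S.min'_le k hk'
        have h5 : kap * r = 2 ^ 78 * (d1 * r) := by
          unfold kap d1
          ring
        have h7 : (2 : ℝ) ^ (k : ℕ) < 2 ^ ((k0 : ℕ) + 79) := by
          rw [pow_add]
          have h6 : (0 : ℝ) < 2 ^ (k0 : ℕ) := by positivity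
          rw [h5] at h3
          nlinarith
        have h8 : (k : ℕ) < (k0 : ℕ) + 79 := (pow_lt_pow_iff_right₀ (by norm_num)).1 h7
        have h9 : (k0 : ℕ) ≤ (k : ℕ) := h4
        simp only [Finset.coe_Ico, Set.mem_Ico]
        exact ⟨h9, h8⟩
      · intro a _ b _ hab
        exact Fin.ext hab
    simpa using h2

/-- The index type. -/
abbrev Ix (V : Type) (M NB : ℕ) : Type := (Fin (M + 1) × Fin 16) × V × Fin NB

/-- The bump of an index. -/
noncomputable def TT (W : LWorld V) (ρ : V → ℝ) {M NB : ℕ} (i : Ix V M NB) (x : V) : ℝ :=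
  Tf W ρ i.1.1 i.1.2 i.2.1 i.2.2 x

section

variable [Fintype V]

open Classical in
/-- The active indices. -/
noncomputable def act (W : LWorld V) (ρ : V → ℝ) (M NB : ℕ) (x : V) : Finset (Ix V M NB) :=
  Finset.univ.filter fun i => TT W ρ i x ≠ 0

theorem act_card (h : W.Scale ρ) (M NB : ℕ) (x : V) : (act W ρ M NB x).card ≤ 2528 := by
  classical
  have h1 : (act W ρ M NB x).card ≤ 2 * ((act W ρ M NB x).image Prod.fst).card := by
    refine Finset.card_le_mul_card_image _ _ fun km _ => ?_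
    have h2 : (((act W ρ M NB x).filter fun i => i.1 = km)).card ≤
        ({⌊(W.D km.1 km.2 x : ℝ) / (16 * 2 ^ (km.1 : ℕ) / 4)⌋₊,
          ⌊(W.D km.1 km.2 x : ℝ) / (16 * 2 ^ (km.1 : ℕ) / 4)⌋₊ + 1} : Finset ℕ).card := by
      refine Finset.card_le_card_of_injOn (fun i => (i.2.2 : ℕ)) ?_ ?_
      · intro i hi
        have hi' := Finset.mem_filter.1 (Finset.mem_coe.1 hi)
        have hi2 : TT W ρ i x ≠ 0 := (Finset.mem_filter.1 hi'.1).2
        obtain ⟨_, _, _, h3⟩ := Tf_ne hi2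
        have h4 := tent_pos_iff (by positivity) (Nat.cast_nonneg _) h3
        rw [hi'.2] at h4
        simp only [Finset.coe_insert, Finset.coe_singleton, Set.mem_insert_iff,
          Set.mem_singleton_iff]
        exact h4
      · intro i hi j hj hij
        have hi' := Finset.mem_filter.1 (Finset.mem_coe.1 hi)
        have hj' := Finset.mem_filter.1 (Finset.mem_coe.1 hj)
        have hi2 : TT W ρ i x ≠ 0 := (Finset.mem_filter.1 hi'.1).2
        have hj2 : TT W ρ j x ≠ 0 := (Finset.mem_filter.1 hj'.1).2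
        have h3 := (Tf_ne hi2).1
        have h4 := (Tf_ne hj2).1
        have h5 : i.1 = j.1 := hi'.2.trans hj'.2.symm
        refine Prod.ext h5 (Prod.ext ?_ (Fin.ext hij))
        rw [← h3, ← h4, h5]
    exact h2.trans Finset.card_le_two
  have h3 : ((act W ρ M NB x).image Prod.fst).card ≤ 79 * 16 := by
    have h4 : (act W ρ M NB x).image Prod.fst ⊆
        ((Finset.univ : Finset (Fin (M + 1))).filter fun k : Fin (M + 1) =>
          d1 * ρ x < 4 * (16 * (2 : ℝ) ^ (k : ℕ)) ∧ 3 * (16 * (2 : ℝ) ^ (k : ℕ)) < kap * ρ x) ×ˢ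
          (Finset.univ : Finset (Fin 16)) := by
      intro km hkm
      obtain ⟨i, hi, rfl⟩ := Finset.mem_image.1 hkm
      have hi2 : TT W ρ i x ≠ 0 := (Finset.mem_filter.1 hi).2
      obtain ⟨_, h3, h4, _⟩ := Tf_ne hi2
      exact Finset.mem_product.2 ⟨Finset.mem_filter.2 ⟨Finset.mem_univ _, h3, h4⟩,
        Finset.mem_univ _⟩
    refine le_trans (Finset.card_le_card h4) ?_
    rw [Finset.card_product, Finset.card_univ, Fintype.card_fin]
    exact Nat.mul_le_mul_right _ (K_card' M (h.nonneg x))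
  omega

theorem sum_edge (h : W.Scale ρ) (M NB : ℕ) {x y : V} (hxy : W.G.Adj x y) :
    ∑ i : Ix V M NB, |TT W ρ i x - TT W ρ i y| ≤ Cf := by
  classical
  have h1 : ∀ i : Ix V M NB, |TT W ρ i x - TT W ρ i y| ≤
      (if i ∈ act W ρ M NB x then (1 : ℝ) else 0) +
        (if i ∈ act W ρ M NB y then (1 : ℝ) else 0) := by
    intro i
    have h2 : |TT W ρ i x - TT W ρ i y| ≤ 1 := Tf_lip h hxy _ _ _ _
    by_cases h3 : TT W ρ i x = 0
    · by_cases h4 : TT W ρ i y = 0
      · rw [h3, h4, sub_zero, abs_zero]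
        split_ifs <;> norm_num
      · have h5 : i ∈ act W ρ M NB y := Finset.mem_filter.2 ⟨Finset.mem_univ _, h4⟩
        rw [if_pos h5]
        split_ifs <;> linarith
    · have h5 : i ∈ act W ρ M NB x := Finset.mem_filter.2 ⟨Finset.mem_univ _, h3⟩
      rw [if_pos h5]
      split_ifs <;> linarith
  refine le_trans (Finset.sum_le_sum fun i _ => h1 i) ?_
  rw [Finset.sum_add_distrib, Finset.sum_ite_mem, Finset.sum_ite_mem]
  simp only [Finset.univ_inter, Finset.sum_const, nsmul_eq_mul, mul_one]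
  have h4 : (((act W ρ M NB x).card : ℕ) : ℝ) ≤ ((2528 : ℕ) : ℝ) := by
    exact_mod_cast act_card h M NB x
  have h5 : (((act W ρ M NB y).card : ℕ) : ℝ) ≤ ((2528 : ℕ) : ℝ) := by
    exact_mod_cast act_card h M NB y
  unfold Cf
  push_cast at h4 h5
  linarith

theorem sum_abs (h : W.Scale ρ) (M NB : ℕ) (x : V) : ∑ i : Ix V M NB, |TT W ρ i x| ≤ ρ x := by
  classical
  have h0 := h.nonneg x
  have h1 : ∀ i : Ix V M NB, |TT W ρ i x| ≤
      (if i ∈ act W ρ M NB x then kap * ρ x / 12 else 0) := by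
    intro i
    by_cases h3 : TT W ρ i x = 0
    · rw [h3, abs_zero]
      have := mul_nonneg kap_pos.le h0
      split_ifs
      · linarith
      · exact le_rfl
    · have h5 : i ∈ act W ρ M NB x := Finset.mem_filter.2 ⟨Finset.mem_univ _, h3⟩
      rw [if_pos h5, abs_of_nonneg (show 0 ≤ TT W ρ i x from Tf_nonneg _ _ _ _ _)]
      obtain ⟨_, _, h6, _⟩ := Tf_ne h3
      have h7 : TT W ρ i x ≤ 16 * 2 ^ (i.1.1 : ℕ) / 4 := Tf_le
      linarith
  refine le_trans (Finset.sum_le_sum fun i _ => h1 i) ?_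
  rw [Finset.sum_ite_mem]
  simp only [Finset.univ_inter, Finset.sum_const, nsmul_eq_mul]
  have h4 : (((act W ρ M NB x).card : ℕ) : ℝ) ≤ ((2528 : ℕ) : ℝ) := by
    exact_mod_cast act_card h M NB x
  push_cast at h4
  have h5 : (((act W ρ M NB x).card : ℕ) : ℝ) * (kap * ρ x / 12) ≤ 2528 * (kap * ρ x / 12) :=
    mul_le_mul_of_nonneg_right h4 (by have := mul_nonneg kap_pos.le h0; positivity)
  refine le_trans h5 ?_
  unfold kap
  nlinarith

theorem Wf_eq {k m n : ℕ} {x : V} (h1 : d1 * ρ x ≤ 3 * (16 * 2 ^ k))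
    (h2 : 4 * (16 * 2 ^ k) ≤ kap * ρ x) (h3 : W.mid k m x) :
    Wf W ρ k m n x = max 0 (tent (16 * 2 ^ k / 4) n (W.D k m x)) := by
  unfold Wf
  have h4 := tent_le (16 * 2 ^ k / 4) n (W.D k m x)
  have h5 := hd_mid W h3
  have h0 : (0 : ℝ) < 2 ^ k := by positivity
  rw [min_eq_right (a := hd W k m x) (by linarith),
    min_eq_right (a := kap * ρ x - 3 * (16 * 2 ^ k)) (by linarith), min_eq_right (by linarith)]

/-- Near pairs. -/
theorem near {M NB : ℕ} (hnb : ∀ k ≤ M, ∀ m < 16, ∀ x,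
    ⌊(W.D k m x : ℝ) / (16 * 2 ^ k / 4)⌋₊ + 2 < NB) {k m : ℕ} {x y : V} (hk : k ≤ M) (hm : m < 16)
    (hu : W.u x = W.u y) (hmid : W.mid k m x) {δ : ℝ} (hδ : 0 ≤ δ)
    (hx1 : d1 * ρ x ≤ 3 * (16 * 2 ^ k)) (hx2 : 4 * (16 * 2 ^ k) ≤ kap * ρ x)
    (hy1 : d1 * ρ y ≤ 3 * (16 * 2 ^ k)) (hy2 : 4 * (16 * 2 ^ k) ≤ kap * ρ y)
    (H : ¬ (W.Bg k m).Reachable x y ∨ δ ≤ (W.D k m y : ℝ) - W.D k m x) :
    ∃ i : Ix V M NB, min (δ / 2) (16 * 2 ^ k / 8) ≤ |TT W ρ i x - TT W ρ i y| := by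
  have hp : (0 : ℝ) < 2 ^ k := by positivity
  have hmy := mid_of_u W hmid hu
  have e1 : ∀ n, Wf W ρ k m n x = max 0 (tent (16 * 2 ^ k / 4) n (W.D k m x)) := fun n =>
    Wf_eq hx1 hx2 hmid
  have e2 : ∀ n, Wf W ρ k m n y = max 0 (tent (16 * 2 ^ k / 4) n (W.D k m y)) := fun n =>
    Wf_eq hy1 hy2 hmy
  by_cases hc : rep W k m x = rep W k m y
  · have hδ2 : δ ≤ (W.D k m y : ℝ) - W.D k m x := by
      rcases H with h | h
      · exact absurd (reach_of_rep W hc) h
      · exact h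
    obtain ⟨n, hn, hn2⟩ := tent_two (g := 16 * 2 ^ k / 4) (by positivity)
      (Nat.cast_nonneg (W.D k m x)) (b := (W.D k m y : ℝ)) (by linarith)
    refine ⟨((⟨k, by omega⟩, ⟨m, hm⟩), rep W k m x, ⟨n, lt_of_le_of_lt hn (hnb k hk m hm x)⟩), ?_⟩
    unfold TT Tf
    simp only
    rw [if_pos trivial, if_pos hc.symm, e1, e2]
    refine le_trans ?_ hn2
    exact min_le_min (by linarith) (by linarith)
  · obtain ⟨n, hn, hn2, _⟩ := tent_big (g := 16 * 2 ^ k / 4) (by positivity)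
      (Nat.cast_nonneg (W.D k m x))
    refine ⟨((⟨k, by omega⟩, ⟨m, hm⟩), rep W k m x,
      ⟨n, lt_of_le_of_lt (by omega) (hnb k hk m hm x)⟩), ?_⟩
    unfold TT Tf
    simp only
    rw [if_pos trivial, if_neg (fun h => hc h.symm), e1, sub_zero]
    refine le_trans (min_le_right _ _) (le_trans ?_ (le_abs_self _))
    exact le_trans (by linarith) (le_max_right _ _)

/-- Far pairs. -/
theorem far {M NB : ℕ} (hnb : ∀ k ≤ M, ∀ m < 16, ∀ x,
    ⌊(W.D k m x : ℝ) / (16 * 2 ^ k / 4)⌋₊ + 2 < NB) {k m : ℕ} {x y : V} (hk : k ≤ M) (hm : m < 16)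
    (hmid : W.mid k m x)
    (hx1 : d1 * ρ x ≤ 3 * (16 * 2 ^ k)) (hx2 : 4 * (16 * 2 ^ k) ≤ kap * ρ x)
    (H : (W.Bg k m).Reachable x y → 3 * (16 * 2 ^ k) / 4 ≤ |(W.D k m x : ℝ) - W.D k m y|) :
    ∃ i : Ix V M NB, 16 * 2 ^ k / 8 ≤ |TT W ρ i x - TT W ρ i y| := by
  have hp : (0 : ℝ) < 2 ^ k := by positivity
  obtain ⟨n, hn, hn2, hn3⟩ := tent_big (g := 16 * 2 ^ k / 4) (by positivity)
    (Nat.cast_nonneg (W.D k m x))
  refine ⟨((⟨k, by omega⟩, ⟨m, hm⟩), rep W k m x,
    ⟨n, lt_of_le_of_lt (by omega) (hnb k hk m hm x)⟩), ?_⟩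
  have hy0 : Tf W ρ k m (rep W k m x) n y = 0 := by
    by_contra h
    obtain ⟨h4, _, _, h5⟩ := Tf_ne h
    have h6 := H (reach_of_rep W h4.symm)
    have := hn3 (W.D k m y) (by linarith)
    linarith
  have hx0 : Tf W ρ k m (rep W k m x) n x = max 0 (tent (16 * 2 ^ k / 4) n (W.D k m x)) := by
    unfold Tf
    rw [if_pos rfl, Wf_eq hx1 hx2 hmid]
  unfold TT
  simp only
  rw [hy0, hx0, sub_zero]
  refine le_trans ?_ (le_abs_self _)
  exact le_trans (by linarith) (le_max_right _ _)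

/-- A power of two between `a` and `2 a`. -/
theorem exists_pow {a : ℝ} (ha : 16 ≤ a) : ∃ k : ℕ, a / 2 < 16 * (2 : ℝ) ^ k ∧
    16 * (2 : ℝ) ^ k ≤ a := by
  obtain ⟨k, hk1, hk2⟩ := exists_nat_pow_near (x := a / 16) (y := 2) (by linarith) (by norm_num)
  refine ⟨k, ?_, by linarith⟩
  rw [pow_succ] at hk2
  linarith

theorem bumps (h : W.Scale ρ) : ∃ (ι : Type) (_ : Fintype ι) (T : ι → V → ℝ),
    (∀ x y, W.G.Adj x y → ∑ i, |T i x - T i y| ≤ Cf) ∧ (∀ x, ∑ i, |T i x| ≤ ρ x) ∧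
    ∀ z y, W.tgt ρ z y → ∃ i, 1 / 2 ^ 32 * W.d z y ≤ |T i z - T i y| := by
  classical
  obtain ⟨M, hM⟩ : ∃ M : ℕ, ∀ x, ρ x < 2 ^ M := by
    obtain ⟨B, hB⟩ := (Set.finite_range ρ).bddAbove
    obtain ⟨M, hM⟩ := pow_unbounded_of_one_lt B (by norm_num : (1 : ℝ) < 2)
    exact ⟨M, fun x => lt_of_le_of_lt (hB ⟨x, rfl⟩) hM⟩
  obtain ⟨NB, hnb⟩ : ∃ NB : ℕ, ∀ k ≤ M, ∀ m < 16, ∀ x,
      ⌊(W.D k m x : ℝ) / (16 * 2 ^ k / 4)⌋₊ + 2 < NB := by
    refine ⟨((Finset.univ : Finset (Fin (M + 1) × Fin 16 × V)).sup fun t =>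
      ⌊(W.D t.1 t.2.1 t.2.2 : ℝ) / (16 * 2 ^ (t.1 : ℕ) / 4)⌋₊) + 3, fun k hk m hm x => ?_⟩
    have := Finset.le_sup (f := fun t : Fin (M + 1) × Fin 16 × V =>
      ⌊(W.D t.1 t.2.1 t.2.2 : ℝ) / (16 * 2 ^ (t.1 : ℕ) / 4)⌋₊)
      (Finset.mem_univ ((⟨k, by omega⟩ : Fin (M + 1)), (⟨m, hm⟩ : Fin 16), x))
    simp only at this
    omega
  have hkM : ∀ (k : ℕ) (x : V), 16 * (2 : ℝ) ^ k ≤ dl * ρ x → k ≤ M := by
    intro k x hk
    have h1 := h.nonneg x
    have h2 : dl * ρ x ≤ ρ x := by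
      unfold dl
      nlinarith
    have h3 : (2 : ℝ) ^ k < 2 ^ M := by
      have h4 : (0 : ℝ) < 2 ^ k := by positivity
      linarith [hM x]
    exact ((pow_lt_pow_iff_right₀ (by norm_num)).1 h3).le
  refine ⟨Ix V M NB, inferInstance, fun i x => TT W ρ i x, fun x y hxy => sum_edge h M NB hxy,
    fun x => sum_abs h M NB x, fun z y ht => ?_⟩
  obtain ⟨hz, hy, hu, hi, hr0, hnx, hle, hcase⟩ := ht
  have hd0 : 0 ≤ W.d z y := Nat.cast_nonneg _
  have hρz := h.nonneg z
  have hlip := h.lip z y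
  -- the clock inequality
  have hT : ∀ k m : ℕ, (W.Bg k m).Reachable z y →
      W.d z y - 2 * (16 * 2 ^ k) ≤ (W.D k m y : ℝ) - W.D k m z := by
    intro k m hr
    have h1 := H119.D_T W k m hz hy hr hi
    have h2 := (H119.bi_of_reach W k m hr).2
    have h3 : ((W.D k m z : ℤ) : ℝ) + ((W.Bg k m).dist z y : ℤ) ≤
        ((W.D k m y : ℤ) : ℝ) + 2 * ((th k : ℤ) : ℝ) := by exact_mod_cast h1
    have h4 : W.d z y ≤ (((W.Bg k m).dist z y : ℕ) : ℝ) := by
      unfold LWorld.d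
      exact_mod_cast h2
    unfold th at h3
    push_cast at h3
    linarith
  by_cases hfar : kap * ρ z < 2 * W.d z y
  · -- far
    have h1 : (2 : ℝ) ^ 90 ≤ ρ z := by
      have : r0 = 2 ^ 90 := rfl
      linarith
    obtain ⟨k, hk1, hk2⟩ := exists_pow (a := dl * ρ z / 2) (by unfold dl; linarith)
    have hk3 : 16 * (2 : ℝ) ^ k ≤ dl * ρ z := by
      have : 0 ≤ dl * ρ z := mul_nonneg (by unfold dl; positivity) hρz
      linarith
    obtain ⟨m, hm, hmid⟩ := H119.exists_mid W k z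
    have hkd : dl * ρ z = kap * ρ z / 8 := by
      unfold dl kap
      ring
    have hd1z : d1 * ρ z ≤ dl * ρ z / 4 := by
      unfold d1 dl
      nlinarith
    obtain ⟨i, hi'⟩ := far (ρ := ρ) (y := y) hnb (hkM k z hk3) hm hmid (by linarith) (by linarith)
      (fun hr => by
        have h2 := hT k m hr
        rw [abs_sub_comm]
        refine le_trans ?_ (le_abs_self _)
        linarith)
    refine ⟨i, le_trans ?_ hi'⟩
    have h5 : dl * ρ z / 4 / 8 ≤ 16 * 2 ^ k / 8 := by linarith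
    refine le_trans ?_ h5
    unfold dl
    nlinarith
  · rw [not_lt] at hfar
    have hρy : ρ z / 2 ≤ ρ y ∧ ρ y ≤ 3 / 2 * ρ z := by
      rw [abs_le] at hlip
      have h1 : W.d z y / kap ≤ ρ z / 2 := by
        rw [div_le_iff₀ kap_pos]
        linarith
      constructor <;> linarith [hlip.1, hlip.2]
    rcases hcase with hc | ⟨k, m, hm, hL, hs⟩
    · exact absurd hc (not_lt.2 hfar)
    · obtain ⟨hmid, hs⟩ := hs
      obtain ⟨hL1, hL2⟩ := hL
      have hthk : ((th k : ℤ) : ℝ) = 16 * 2 ^ k := by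
        unfold th
        push_cast
        ring
      rw [hthk] at hL1 hL2
      have hkd : dl * ρ z = kap * ρ z / 8 := by
        unfold dl kap
        ring
      have hd1y : d1 * ρ y ≤ 3 / 2 * (d1 * ρ z) := by
        have := mul_le_mul_of_nonneg_left hρy.2 d1_pos.le
        linarith
      have hkpy : kap * ρ z / 2 ≤ kap * ρ y := by
        have := mul_le_mul_of_nonneg_left hρy.1 kap_pos.le
        linarith
      have hp : (0 : ℝ) < 2 ^ k := by positivity
      by_cases hbig : W.d z y / 2 ^ 29 ≤ 16 * 2 ^ k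
      · obtain ⟨i, hi'⟩ := near (ρ := ρ) hnb (hkM k z hL2) hm hu hmid
          (δ := cp * W.d z y) (mul_nonneg (by unfold cp; positivity) hd0) (by linarith)
          (by linarith) (by linarith) (by linarith) hs
        refine ⟨i, le_trans (le_min ?_ ?_) hi'⟩
        · unfold cp
          nlinarith
        · have : 1 / 2 ^ 32 * W.d z y = W.d z y / 2 ^ 29 / 8 := by ring
          rw [this]
          linarith
      · rw [not_le] at hbig
        have h90 : (2 : ℝ) ^ 90 ≤ W.d z y := hr0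
        obtain ⟨k', hk1, hk2⟩ := exists_pow (a := W.d z y / 8) (by linarith)
        have hk3 : 16 * (2 : ℝ) ^ k' ≤ dl * ρ z := by linarith
        obtain ⟨m', hm', hmid'⟩ := H119.exists_mid W k' z
        have hd16 : W.d z y / 2 ^ 29 ≤ W.d z y / 16 := by
          have : (0 : ℝ) ≤ W.d z y := hd0
          nlinarith
        obtain ⟨i, hi'⟩ := near (ρ := ρ) hnb (hkM k' z hk3) hm' hu hmid'
          (δ := W.d z y / 2) (by linarith) (by linarith)
          (by linarith) (by linarith) (by linarith) (by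
            by_cases hr : (W.Bg k' m').Reachable z y
            · right
              have := hT k' m' hr
              linarith
            · left
              exact hr)
        refine ⟨i, le_trans (le_min ?_ ?_) hi'⟩
        · nlinarith
        · nlinarith

end

end Vale.Agent.P235.STO.H875
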